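import Vale.Agent.P284.H608.D.Dom
import Vale.Agent.P284.H661.D.Main

/-!
# Fundamental groups of compact Kähler manifolds dominated by complex vector spaces

Let `X` be a connected compact Kähler manifold of dimension `n`, and suppose that there is a
holomorphic map `ℂᴺ → X`, for some `N`, whose differential is surjective at one point.

* `X` is special in the sense of Campana.
* Every amenable quotient of `π₁(X)` has an abelian subgroup of finite index with at most `2 n`
  generators.
* So has `π₁(X)` itself if it is amenable, in particular if almost every point of `X` is joined to a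
  countable set by a chain of entire curves, or if at almost every point of `X` the velocities of the
  entire curves span the tangent space.
* So has `π₁(X)` if `X` is, up to a null set, the image of some holomorphic map `ℂᴺ → X`, or if almost
  every point is dominable.
-/

open scoped Manifold ContDiff
open Vale.Agent.P272.K Vale.Agent.P284.H248 Vale.Agent.P284.H894 Vale.Agent.P284.H894.G
  Vale.Agent.P284.H894.F Vale.Agent.P284.H478 Set

namespace Vale.Agent.Results.P284.DominatedAbelian

theorem result {n : ℕ} {X : Type} [TopologicalSpace X] [T2Space X] [CompactSpace X]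
    [ConnectedSpace X] [ChartedSpace (Cm n) X] [IsManifold 𝓘(ℂ, Cm n) ω X]
    (hX : ∃ w : Chart n X → Cm n → Matrix (Fin n) (Fin n) ℂ, IsKahler w) :
    (Dominated n X → Special n X ∧ ∀ x : X,
      (∀ (Q : Type) [Group Q] (f : FundamentalGroup X x →* Q), Function.Surjective f → Folner Q →
        VirtAbelianRank Q (2 * n)) ∧
      ((Folner (FundamentalGroup X x) ∨ SubexpGrowth (FundamentalGroup X x) ∨
        AECurveConnected n x ∨ AECurveSpanned n x) →
          VirtAbelianRank (FundamentalGroup X x) (2 * n))) ∧
    (NullSet n {y : X | ¬ Dominable n y} →
      ∀ x : X, VirtAbelianRank (FundamentalGroup X x) (2 * n)) ∧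
    (∀ (N : ℕ) (Φ : Cm N → X), Holo (n := n) Φ → NullSet n (range Φ)ᶜ →
      ∀ x : X, VirtAbelianRank (FundamentalGroup X x) (2 * n)) :=
  Vale.Agent.P284.H608.D.domK_of Vale.Agent.P284.H661.D.special_of_domWK n X hX

end Vale.Agent.Results.P284.DominatedAbelian
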