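import Vale.Agent.P284.H478.T.T3P

/-!
# Quotients of the fundamental groups of special compact Kähler manifolds

Let `X` be a connected compact Kähler manifold of dimension `n` which is special in the sense of Campana,
and let `Q` be a quotient of its fundamental group (for example `π₁(X)` itself).

* Either `Q` has a finite dimensional real representation the image of which is not virtually solvable, or
  a subgroup of finite index of `Q` maps onto `ℤ^m`, `m ≤ 2 n`, with finitely generated kernel with
  Kazhdan's property (T).
* `Q` is virtually abelian if and only if it has no such representation and all its subgroups with property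
  (T) are finite; then its rank is at most `2 n`.
* If `Q` has the Haagerup property, then `Q` has such a representation or is virtually abelian.
* If all finite dimensional real representations of `Q` have finite image, then `Q` has property (T).
-/

open scoped Manifold ContDiff
open Vale.Agent.P272.K Vale.Agent.P284.H248 Vale.Agent.P284.H213.T3 Vale.Agent.P284.H661.Grp
  Vale.Agent.P284.H478.T
open Vale.Agent.P284.H894.F (VirtAbelianRank)

namespace Vale.Agent.Results.P284.SpecialStructure

theorem result {n : ℕ} {X : Type} [TopologicalSpace X] [T2Space X] [CompactSpace X]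
    [ConnectedSpace X] [ChartedSpace (Cm n) X] [IsManifold 𝓘(ℂ, Cm n) ω X]
    (hX : ∃ w : Chart n X → Cm n → Matrix (Fin n) (Fin n) ℂ, IsKahler w) (hS : Special n X) (x : X)
    (Q : Type) [Group Q] (f : FundamentalGroup X x →* Q) (hf : Function.Surjective f) :
    (NSRep Q ∨ KazhdanByAbelian Q (2 * n)) ∧
    (VirtuallyAbelian Q ↔ ¬ NSRep Q ∧ ∀ K : Subgroup Q, PropertyT K → Finite K) ∧
    (VirtuallyAbelian Q → VirtAbelianRank Q (2 * n)) ∧
    (Haagerup Q → NSRep Q ∨ VirtuallyAbelian Q) ∧
    (FiniteImages Q → PropertyT Q) := by
  obtain ⟨w, hw⟩ := hX
  exact struct_of Vale.Agent.P284.H402.R.t2S t3p hw hS x Q f hf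

end Vale.Agent.Results.P284.SpecialStructure
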